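import Crest.Agent.X212.Sep15.QD
import Crest.Agent.X212.Sym24.NF

/-!
# X212/Hp52/Main (helper52): the trivial commutator creates a hyperbolic pair (`Sep15.HpBase`)
-/

set_option autoImplicit false
set_option linter.unusedSectionVars false
set_option backward.isDefEq.respectTransparency false

open Set Filter Topology Function
open scoped ContDiff Manifold
open Crest.Agent.R208 Crest.Agent.R208.F Crest.Agent.R208.FI Crest.Agent.X212.Dr59 Crest.Agent.X212.Int54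
open Crest.Agent.X212.Cyl58 Crest.Agent.X212.Sym24
open Crest.Agent.X212.Bb31 (Fm OE)
open Crest.Agent.X212.Sep15 hiding IR

noncomputable section

namespace Crest.Agent.X212.Hp52

section gen

variable {E : Type*} [NormedAddCommGroup E] [NormedSpace ℝ E] [FiniteDimensional ℝ E]
  {H : Type*} [TopologicalSpace H] {I : ModelWithCorners ℝ E H} [I.Boundaryless]
  {M : Type*} [TopologicalSpace M] [ChartedSpace H M] [IsManifold I ∞ M]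
  {E' : Type*} [NormedAddCommGroup E'] [NormedSpace ℝ E'] [FiniteDimensional ℝ E']
  {H' : Type*} [TopologicalSpace H'] {J : ModelWithCorners ℝ E' H'} [J.Boundaryless]
  {N : Type*} [TopologicalSpace N] [ChartedSpace H' N] [IsManifold J ∞ N]
  {E'' : Type*} [NormedAddCommGroup E''] [NormedSpace ℝ E''] [FiniteDimensional ℝ E'']
  {H'' : Type*} [TopologicalSpace H''] {K : ModelWithCorners ℝ E'' H''} [K.Boundaryless]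
  {P : Type*} [TopologicalSpace P] [ChartedSpace H'' P] [IsManifold K ∞ P]

/-- a form pulled back by a map which is given in two charts -/
theorem two [T2Space M] [Inhabited P] {f₁ f₂ : N → M} {U₁ U₂ K₁ K₂ : Set N} {p₁ p₂ : N → P}
    {o : P → Ext E''} {k : ℕ} (h₁ : OE J I U₁ f₁) (h₂ : OE J I U₂ f₂) (s₁ : ContMDiff J K ∞ p₁)
    (s₂ : ContMDiff J K ∞ p₂) (e : ∀ y ∈ U₁, ∀ z ∈ U₂, f₁ y = f₂ z → p₁ y = p₂ z)
    (ho : Cl K k univ o) (sq : o * o = 0) (c₁ : IsCompact K₁) (c₂ : IsCompact K₂) (u₁ : K₁ ⊆ U₁)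
    (u₂ : K₂ ⊆ U₂) (z₁ : ∀ y ∈ U₁, o (p₁ y) ≠ 0 → f₁ y ∈ f₁ '' K₁ ∪ f₂ '' K₂)
    (z₂ : ∀ y ∈ U₂, o (p₂ y) ≠ 0 → f₂ y ∈ f₁ '' K₁ ∪ f₂ '' K₂) :
    ∃ A : M → Ext E, Cs I k (f₁ '' K₁ ∪ f₂ '' K₂) A ∧ A * A = 0 ∧
      ∀ y ∈ U₁, pm J I f₁ A y = pm J K p₁ o y := by
  obtain ⟨p, e₁, e₂⟩ := exists_fun2 h₁.inj h₂.inj e
  have v₁ : ∀ y ∈ U₁, p ∘ f₁ =ᶠ[𝓝 y] p₁ := fun y hy => eventually_of_mem (h₁.op.mem_nhds hy) e₁
  have v₂ : ∀ y ∈ U₂, p ∘ f₂ =ᶠ[𝓝 y] p₂ := fun y hy => eventually_of_mem (h₂.op.mem_nhds hy) e₂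
  have hp : Mp I K (f₁ '' U₁ ∪ f₂ '' U₂) univ p := ⟨by
    rintro _ (⟨y, hy, rfl⟩ | ⟨y, hy, rfl⟩)
    exacts [Glue52.contMDiffAt_of_comp (h₁.ld y hy) ((s₁ y).congr_of_eventuallyEq (v₁ y hy)),
      Glue52.contMDiffAt_of_comp (h₂.ld y hy) ((s₂ y).congr_of_eventuallyEq (v₂ y hy))],
    mapsTo_univ _ _⟩
  refine ⟨(f₁ '' U₁ ∪ f₂ '' U₂).indicator (pm I K p o),
    cs_indicator (h₁.isOpen_image.union h₂.isOpen_image) (ho.pm hp)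
      ((h₁.isCompact_image c₁ u₁).union (h₂.isCompact_image c₂ u₂))
      (union_subset_union (image_mono u₁) (image_mono u₂)) ?_, funext fun x => ?_, fun y hy => ?_⟩
  · rintro _ (⟨y, hy, rfl⟩ | ⟨y, hy, rfl⟩) hx
    · rw [pm_apply, e₁ y hy, not_not.1 (mt (z₁ y hy) hx), map_zero]
    · rw [pm_apply, e₂ y hy, not_not.1 (mt (z₂ y hy) hx), map_zero]
  · by_cases hx : x ∈ f₁ '' U₁ ∪ f₂ '' U₂
    · rw [Pi.mul_apply, indicator_of_mem hx, pm_apply, ← map_mul, ← Pi.mul_apply, sq]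
      exact map_zero _
    · rw [Pi.mul_apply, indicator_of_notMem hx, mul_zero]
      rfl
  · have h : f₁ y ∈ f₁ '' U₁ ∪ f₂ '' U₂ := .inl (mem_image_of_mem _ hy)
    rw [pm_congr_right (b := pm I K p o) (indicator_of_mem h _),
      pm_comp ((hp.sm _ h).mdifferentiableAt ne0) ((h₁.ld y hy).mdifferentiableAt ne0)]
    exact pm_congr (v₁ y hy) rfl

/-- a bump on `(u, w)` -/
def bu (u w r : ℝ) : ℝ := expNegInvGlue (r - u) * expNegInvGlue (w - r)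

theorem contDiff_bu (u w : ℝ) : ContDiff ℝ ∞ (bu u w) :=
  (expNegInvGlue.contDiff.comp (contDiff_id.sub contDiff_const)).mul
    (expNegInvGlue.contDiff.comp (contDiff_const.sub contDiff_id))

theorem bu_ne {u w r : ℝ} : bu u w r ≠ 0 ↔ r ∈ Ioo u w := by
  rw [bu, mul_ne_zero_iff, Ne, Ne, expNegInvGlue.zero_iff_nonpos, expNegInvGlue.zero_iff_nonpos,
    not_le, not_le, sub_pos, sub_pos, mem_Ioo]

/-- the form `g (t) dt ∧ θ` -/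
def om (g : ℝ → ℝ) (θ : M → Ext E) : M × ℝ → Ext (E × ℝ) := ft M g • (dt E M * pu θ)

theorem cl_om {g : ℝ → ℝ} (hg : ContDiff ℝ ∞ g) {θ : M → Ext E} (h : Cl I 1 univ θ) :
    Cl (IR I) 2 univ (om g θ) := by
  have h1 : Cl (IR I) (1 + 1) univ (dt E M * pu θ) := by
    rw [← df_snd (I := I), ← pm_fst (I := I)]
    exact (cl_df fun _ _ => contMDiffAt_snd).mul (h.pm (mp_univ contMDiff_fst))
  refine ⟨fun p _ => smAt_ft hg (h1.sm p trivial), fun p _ => (h1.dg p trivial).smul _,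
    fun p _ => ?_⟩
  rw [om, dM_ft hg (h1.sm p trivial), h1.cl p trivial, smul_zero, add_zero]
  exact (congrArg _ (dT_dT _)).trans (smul_zero _)

theorem om_sq (g : ℝ → ℝ) {θ : M → Ext E} (h : Cl I 1 univ θ) : om g θ * om g θ = 0 := by
  funext p
  show g p.2 • (dT E * up (θ p.1)) * g p.2 • (dT E * up (θ p.1)) = 0
  rw [smul_mul_smul_comm, mul_assoc, ← mul_assoc (up _), anti1 (isDeg_up (h.dg _ trivial)) isDeg_dT,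
    neg_mul, mul_neg, mul_assoc, dT_dT, neg_zero, smul_zero]

theorem mem_of_om {u w : ℝ} {θ : M → Ext E} {p : M × ℝ} (h : om (bu u w) θ p ≠ 0) :
    p.2 ∈ Ioo u w := bu_ne.1 fun e => h (by
  show bu u w p.2 • (dT E * up (θ p.1)) = 0
  rw [e, zero_smul])

theorem pm_om {π : N → M} {φ : N → ℝ} {q : N} (hπ : ContMDiff J I ∞ π)
    (hφ : ContMDiff J 𝓘(ℝ, ℝ) ∞ φ) (g : ℝ → ℝ) (θ : M → Ext E) :
    pm J (IR I) (fun q => (π q, φ q)) (om g θ) q = g (φ q) • (df J φ q * pm J I π θ q) := by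
  have h := ((hπ.prodMk hφ) q).mdifferentiableAt ne0
  rw [om, pm_fsmul, pm_mul, ← df_snd (I := I), ← pm_fst (I := I), Pi.smul_apply', Pi.mul_apply,
    pm_df h mdifferentiableAt_snd, pm_comp mdifferentiableAt_fst h]
  rfl

theorem pm_ff (θ : M → Ext E) (q : (M × ℝ) × ℝ) :
    pm (IR (IR I)) I (fun q => q.1.1) θ q = up (up (θ q.1.1)) := by
  have := pm_comp (K := IR (IR I)) (J := IR I) (I := I) (f := Prod.fst) (g := Prod.fst) (a := θ)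
    (z := q) mdifferentiableAt_fst mdifferentiableAt_fst
  rw [pm_fst, pm_fst] at this
  exact this.symm

theorem tp_pair {φ : (M × ℝ) × ℝ → ℝ} (hφ : ContMDiff (IR (IR I)) 𝓘(ℝ, ℝ) ∞ φ) {q : (M × ℝ) × ℝ}
    {γ : ℝ → ℝ} {c : ℝ} (hγ : HasDerivAt γ c q.1.2) (e : ∀ p : M × ℝ, φ (p, q.2) = γ p.2)
    (g g' : ℝ → ℝ) {θ θ' : M → Ext E} (h : IsDeg 1 (θ q.1.1)) :
    tp ((E × ℝ) × ℝ) (pm (IR (IR I)) (IR I) (fun q => (q.1.1, q.2)) (om g θ) q *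
      pm (IR (IR I)) (IR I) (fun q => (q.1.1, φ q)) (om g' θ') q) =
      -(Sym24.kap (E × ℝ) * Sym24.kap E) * (g q.2 * g' (φ q) * c * tp E (θ q.1.1 * θ' q.1.1)) := by
  have c1 : ContMDiff (IR (IR I)) I ∞ fun q : (M × ℝ) × ℝ => q.1.1 := contMDiff_fst.comp contMDiff_fst
  have d : dn (df (IR (IR I)) φ q) = c • dT E := by
    have h1 := pm_df (J := IR I) (f := fun p : M × ℝ => (p, q.2)) (y := q.1)
      (mdifferentiableAt_id.prodMk mdifferentiableAt_const) ((hφ q).mdifferentiableAt ne0)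
    rw [pm_inl, show φ ∘ (fun p : M × ℝ => (p, q.2)) = fun p => γ p.2 from funext e,
      df_comp_snd hγ] at h1
    exact h1
  rw [pm_om c1 contMDiff_snd, pm_om c1 hφ, pm_ff, pm_ff, smul_mul_smul_comm, map_smul, df_snd, dt,
    mul_assoc (dT _), ← mul_assoc (up _), tp_dT_mul, map_mul dn, map_mul dn, dn_up, dn_up, d, 
    mul_smul_comm, anti1 (isDeg_up h) isDeg_dT, smul_neg, neg_mul, smul_mul_assoc, mul_assoc (dT _),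
    ← map_mul, map_neg, map_smul, tp_dT_up, smul_eq_mul, smul_eq_mul]
  ring

end gen

/-! ### the three charts -/

/-- the model of `(R × ℝ) × ℝ` -/
abbrev I4 := IR (IR (𝓡 2))

/-- the plane with two slits -/
def U0 (R : CM 2) (α β : ℝ) : Set ((R × ℝ) × ℝ) := {q | (q.1.2 ≠ α ∧ q.1.2 ≠ β) ∨ q.2 < 0}

/-- negative heights -/
def Ng (R : CM 2) : Set ((R × ℝ) × ℝ) := {q | q.2 < 0}

/-- three charts of a product of `R` with a surface of genus one -/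
structure Geo {R : CM 2} {X : Type} [TopologicalSpace X] [ChartedSpace (EE 4) X] (σ₁ σ₂ : ℝ → ℝ)
    (k₀ k₁ k₂ : (R × ℝ) × ℝ → X) (Z : Set X) : Prop where
  o₀ : OE I4 (𝓡 4) (U0 R (σ₁ 0) (σ₂ 0)) k₀
  o₁ : OE I4 (𝓡 4) (Ng R) k₁
  o₂ : OE I4 (𝓡 4) univ k₂
  lo : ∀ x v s, v < 0 → k₁ ((x, v), s) = k₀ ((x, σ₂ v), Real.exp s)
  hi : ∀ x v s, 0 < v → k₁ ((x, v), s) = k₀ ((x, σ₁ v), Real.exp s)
  top : ∀ x h s, h ≠ σ₁ 0 → h ≠ σ₂ 0 → k₂ ((x, h), s) = k₀ ((x, h), Real.exp (Real.exp s))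
  n₁ : ∀ q ∈ U0 R (σ₁ 0) (σ₂ 0), ∀ z ∈ Ng R, k₀ q = k₁ z → z.1.2 ≠ 0
  n₂ : ∀ q ∈ U0 R (σ₁ 0) (σ₂ 0), ∀ z, k₀ q = k₂ z → z.1.2 ≠ σ₁ 0 ∧ z.1.2 ≠ σ₂ 0
  n₃ : ∀ z ∈ Ng R, ∀ w, k₁ z ≠ k₂ w
  z₀ : ∀ q ∈ U0 R (σ₁ 0) (σ₂ 0), q.2 < 2 → k₀ q ∈ Z
  z₁ : ∀ z ∈ Ng R, k₁ z ∈ Z
  z₂ : ∀ z ∈ Ng R, k₂ z ∈ Z

variable {Y Y' : CM 3} {R : CM 2}

theorem j_mem_tgt {b₁ b₂ : R × ℝ → Y} {b₁' b₂' : R × ℝ → Y'} {S : Sw b₁ b₂ b₁' b₂'} {C : End Y}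
    {C' : End Y'} (O : Op S C C') {q : Y' × ℝ} (h : C'.j q ∈ O.i.target) : q.1 ∈ S.φ.target := by
  obtain ⟨y, s⟩ := q
  rcases S.cases' y with ⟨x, hx, rfl⟩ | ⟨x, rfl⟩ | ⟨x, rfl⟩
  · exact S.φ.map_source hx
  · rw [O.j₁] at h
    exact (O.raw.e_mem.1 h (by simpa using rt_im_zero (p := (0, s)) rfl)).elim
  · rw [O.j₂] at h
    exact (O.raw.e_mem.1 h (rt_im_zero (p := (0, s)) rfl)).elim

theorem mem_int {C : End Y} {x : C.X} (h : x ∉ C.j '' (univ ×ˢ Ici 0)) : x ∈ interior (C.K 0) :=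
  interior_maximal (compl_subset_compl.2 (image_mono (Set.prod_mono Subset.rfl Ioi_subset_Ici_self)))
    (C.isClosed_Ici 0).isOpen_compl h

theorem slab2 {c : R × ℝ → Y} (hc : Box c) {σ₁ σ₂ : ℝ → ℝ} {p : R × ℝ} :
    c p ∈ (slab (c ∘ Prod.map id σ₁) {0} ∪ slab (c ∘ Prod.map id σ₂) {0})ᶜ ↔
      p.2 ≠ σ₁ 0 ∧ p.2 ≠ σ₂ 0 := by
  rw [slab_sub c surjective_id, slab_sub c surjective_id, mem_compl_iff, mem_union, mem_slab hc,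
    mem_slab hc, image_singleton, image_singleton, not_or]
  rfl

theorem geo {b : R × ℝ → Y} {b' : R × ℝ → Y'} {G : Rg b id b'} {σ₁ σ₂ : ℝ → ℝ}
    (M : Cm G (Diffeomorph.refl (𝓡 2) R ∞) (Diffeomorph.refl (𝓡 2) R ∞) σ₁ σ₂) {C : End Y}
    {C₁ : End M.Y₁} {C₂ : End Y'} (O₁ : Op M.S₁ C C₁) (O₂ : Op M.S₂ C₁ C₂) :
    Geo σ₁ σ₂ (fun q => O₂.i (O₁.i (C.j (b q.1, q.2)))) (fun q => O₂.i (C₁.j (M.c₂ q.1, q.2)))
      (fun q => C₂.j (b' q.1, q.2)) (interior (C₂.K 0)) := by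
  have st : M.S₂.φ.source = M.S₁.φ.target := M.S₂.src.trans M.S₁.tgt.symm
  have s₁ : ∀ {p : R × ℝ}, b p ∈ M.S₁.φ.source ↔ p.2 ≠ σ₁ 0 ∧ p.2 ≠ σ₂ 0 := by
    intro p
    rw [M.S₁.src]
    exact slab2 G.o
  have t₂ : ∀ {p : R × ℝ}, b' p ∈ M.S₂.φ.target ↔ p.2 ≠ σ₁ 0 ∧ p.2 ≠ σ₂ 0 := by
    intro p
    rw [M.S₂.tgt]
    exact slab2 G.o'
  have m₁ : ∀ q ∈ U0 R (σ₁ 0) (σ₂ 0), C.j (b q.1, q.2) ∈ O₁.i.source := fun q hq =>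
    O₁.raw.j_mem.2 (hq.imp s₁.2 id)
  have ts : ∀ x ∈ O₁.i.target, x ∈ O₂.i.source := fun x hx => by
    by_cases h : x ∈ range C₁.j
    · obtain ⟨q, rfl⟩ := h
      exact O₂.raw.j_mem.2 (.inl (st ▸ j_mem_tgt O₁ hx))
    · exact O₂.raw.mem_of_notMem h
  have m₂ : ∀ q ∈ U0 R (σ₁ 0) (σ₂ 0), O₁.i (C.j (b q.1, q.2)) ∈ O₂.i.source := fun q hq =>
    ts _ (O₁.i.map_source (m₁ q hq))
  have m₃ : ∀ z ∈ Ng R, C₁.j (M.c₂ z.1, z.2) ∈ O₂.i.source := fun z hz => O₂.raw.j_mem.2 (.inr hz)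
  have c2 : Continuous fun q : (R × ℝ) × ℝ => q.1.2 := continuous_snd.comp continuous_fst
  have ng : IsOpen (Ng R) := isOpen_lt continuous_snd continuous_const
  have jm : ∀ {Z : CM 3} (D : End Z) (s : Set ℝ) (q : Z × ℝ), D.j q ∈ D.j '' (univ ×ˢ s) → q.2 ∈ s :=
    fun D s q h => (D.oe.inj.mem_set_image.1 h).2
  refine ⟨((OE.of_pd (O₁.i.trans O₂.i)).comp (C.oe.comp (G.o.prodMap IsOE.id))).mono
      (((isOpen_ne.preimage c2).inter (isOpen_ne.preimage c2)).union ng)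
      fun q hq => ⟨m₁ q hq, m₂ q hq⟩,
    ((OE.of_pd O₂.i).comp (C₁.oe.comp (M.S₁.o₂'.prodMap IsOE.id))).mono ng m₃,
    OE.of_oe (C₂.oe.comp (G.o'.prodMap IsOE.id)), fun x v s hv => congrArg O₂.i ?_,
    fun x v s hv => congrArg O₂.i ?_, fun x h s h1 h2 => ?_, fun q hq z hz e => ?_,
    fun q hq z e => ?_, fun z hz w e => ?_, fun q hq h => mem_int fun k => ?_,
    fun z hz => mem_int fun k => ?_, fun z hz => mem_int fun k => LT.lt.not_ge hz (jm _ _ _ k)⟩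
  · rw [← M.S₁.lo₂ (x, v) hv]
    exact O₁.ej _ (M.S₁.b₂_mem.2 hv.ne) s
  · rw [← M.S₁.hi₁ (x, v) hv]
    exact O₁.ej _ (M.S₁.b₁_mem.2 hv.ne') s
  · have h3 : b (x, h) ∈ M.S₁.φ.source := s₁.2 ⟨h1, h2⟩
    have h4 : M.S₂.φ (M.S₁.φ (b (x, h))) = b' (x, h) := by
      by_cases k : h ∈ Icc (σ₁ 0) (σ₂ 0)
      · exact M.mid (x, h) ⟨lt_of_le_of_ne k.1 h1.symm, lt_of_le_of_ne k.2 h2⟩
      · rw [M.out _ (mt (mem_slab G.o).1 k)]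
        rcases not_and_or.1 k with k | k
        exacts [G.lo _ ((not_le.1 k).trans M.lv.neg), G.hi _ (M.lv.pos.trans (not_le.1 k))]
    show C₂.j (b' (x, h), s) = _
    rw [← h4, O₂.ej _ (st ▸ M.S₁.φ.map_source h3), O₁.ej _ h3]
  · exact M.S₁.b₂'_mem.1 (j_mem_tgt O₁ (q := (M.c₂ z.1, z.2))
      (O₂.i.injOn (m₂ q hq) (m₃ z hz) e ▸ O₁.i.map_source (m₁ q hq)))
  · exact t₂.1 (j_mem_tgt O₂ (q := (b' z.1, z.2)) (e ▸ O₂.i.map_source (m₂ q hq)))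
  · obtain ⟨t, -, k⟩ := jm _ _ _ ((O₂.i_mem (s := univ) (m₃ z hz)).1 ⟨_, ⟨trivial, trivial⟩, e.symm⟩)
    exact (Real.exp_pos t).not_gt (k ▸ hz)
  · obtain ⟨_, ⟨t, ht, rfl⟩, k⟩ := jm _ _ _ ((O₁.i_mem (m₁ q hq)).1 ((O₂.i_mem (m₂ q hq)).1 k))
    have h1 := Real.add_one_le_exp (Real.exp t)
    have h2 := Real.one_le_exp ht
    simp only at k
    linarith
  · obtain ⟨t, -, k⟩ := jm _ _ _ ((O₂.i_mem (m₃ z hz)).1 k)
    exact (Real.exp_pos t).not_gt (k ▸ hz)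

/-! ### the two forms -/

/-- the open annulus -/
def U1 (R : CM 2) (α β : ℝ) : Set ((R × ℝ) × ℝ) := {q | q.1.2 ∈ Ioo α β ∧ q.2 ∈ Ioo 0 1}

theorem U1_sub {α β : ℝ} : U1 R α β ⊆ U0 R α β := fun _ hq => .inl ⟨hq.1.1.ne', hq.1.2.ne⟩

/-- the radius round the first slit -/
def rho (α δ h t : ℝ) : ℝ := ((h - α) / δ) ^ 2 + (t - 1 / 2) ^ 2

theorem rho_le {α δ h t : ℝ} (hδ : 0 < δ) (k : rho α δ h t < 4) :
    h ∈ Icc (α - 2 * δ) (α + 2 * δ) ∧ t ∈ Icc (-3 / 2) (5 / 2) := by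
  have h1 : |(h - α) / δ| ≤ 2 := abs_le_of_sq_le_sq' (by
    rw [rho] at k; nlinarith [sq_nonneg (t - 1 / 2)]) two_pos.le |> abs_le.2
  have h2 := abs_le_of_sq_le_sq' (a := t - 1 / 2) (b := 2) (by
    rw [rho] at k; nlinarith [sq_nonneg ((h - α) / δ)]) two_pos.le
  rw [abs_div, abs_of_pos hδ, div_le_iff₀ hδ, abs_le] at h1
  exact ⟨⟨by linarith [h1.1], by linarith [h1.2]⟩, by linarith [h2.1], by linarith [h2.2]⟩

theorem rho_ne {α δ h t : ℝ} (k : 1 ≤ rho α δ h t) (h1 : 0 ≤ t) (h2 : t ≤ 5 / 4) : h ≠ α := by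
  rintro rfl
  rw [rho, sub_self, zero_div] at k
  nlinarith

theorem contMDiff_rho (α δ : ℝ) {f : ℝ → ℝ} (hf : ContDiff ℝ ∞ f) :
    ContMDiff I4 𝓘(ℝ, ℝ) ∞ fun q : (R × ℝ) × ℝ => rho α δ q.1.2 (f q.2) := by
  have h : ContDiff ℝ ∞ fun p : ℝ × ℝ => rho α δ p.1 (f p.2) := by
    unfold rho
    fun_prop
  exact h.contMDiff.comp ((contMDiff_snd.comp contMDiff_fst).prodMk_space contMDiff_snd)

namespace Geo

variable {X : Type} [TopologicalSpace X] [ChartedSpace (EE 4) X] [IsManifold (𝓡 4) ∞ X] [T2Space X]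
  {σ₁ σ₂ : ℝ → ℝ} {k₀ k₁ k₂ : (R × ℝ) × ℝ → X} {Z : Set X} (h : Geo σ₁ σ₂ k₀ k₁ k₂ Z)
  (L : Lv σ₁ σ₂) [Inhabited R] {θ : Fm 2 R} (hθ : Cl (𝓡 2) 1 univ θ)

include h L

theorem k₁_eq (z : (R × ℝ) × ℝ) (hz : z.1.2 ≠ 0) : ∃ r ∈ Ioo (σ₁ 0) (σ₂ 0),
    k₁ z = k₀ ((z.1.1, r), Real.exp z.2) ∧ (1 < |z.1.2| → r ∈ Icc (σ₁ 1) (σ₂ (-1))) := by
  rcases hz.lt_or_gt with k | k
  · refine ⟨_, ⟨L.lt _ _, L.u₂.strictMono k⟩, h.lo _ _ _ k, fun e => ⟨(L.lt _ _).le, ?_⟩⟩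
    rw [abs_of_neg k] at e
    exact (L.u₂.strictMono (by linarith)).le
  · refine ⟨_, ⟨L.u₁.strictMono k, L.lt _ _⟩, h.hi _ _ _ k, fun e => ⟨?_, (L.lt _ _).le⟩⟩
    rw [abs_of_pos k] at e
    exact (L.u₁.strictMono e).le

include hθ

theorem fa : ∃ A : Fm 4 X, Cs (𝓡 4) 2 Z A ∧ A * A = 0 ∧ (∀ q ∈ U1 R (σ₁ 0) (σ₂ 0),
    pm I4 (𝓡 4) k₀ A q = pm I4 (IR (𝓡 2)) (fun q => (q.1.1, q.2)) (om (bu (1 / 4) (1 / 2)) θ) q) ∧
    ∀ x, A x ≠ 0 → x ∈ k₀ '' U1 R (σ₁ 0) (σ₂ 0) ∨ ∃ z ∈ Ng R, z.1.2 = 0 ∧ k₁ z = x := by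
  have c1 : ContMDiff I4 (𝓡 2) ∞ fun q : (R × ℝ) × ℝ => q.1.1 := contMDiff_fst.comp contMDiff_fst
  have c2 : Continuous fun q : (R × ℝ) × ℝ => q.1.2 := continuous_snd.comp continuous_fst
  have l2 : Real.log (1 / 2) < 0 := Real.log_neg (by norm_num) (by norm_num)
  have u₁ : (univ ×ˢ Icc (σ₁ 1) (σ₂ (-1))) ×ˢ Icc (1 / 4 : ℝ) (1 / 2) ⊆ U1 R (σ₁ 0) (σ₂ 0) :=
    fun q hq => ⟨⟨(L.u₁.strictMono one_pos).trans_le hq.1.2.1,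
      hq.1.2.2.trans_lt (L.u₂.strictMono neg_one_lt_zero)⟩, by linarith [hq.2.1], by linarith [hq.2.2]⟩
  have u₂ : (univ ×ˢ Icc (-1 : ℝ) 1) ×ˢ Icc (Real.log (1 / 4)) (Real.log (1 / 2)) ⊆ Ng R :=
    fun q hq => hq.2.2.trans_lt l2
  have ex : ∀ {s : ℝ}, s < 0 → Real.exp s ∈ Ioo (0 : ℝ) 1 := fun hs =>
    ⟨Real.exp_pos _, Real.exp_lt_one_iff.2 hs⟩
  obtain ⟨A, h1, h2, h3⟩ := two (p₁ := fun q => (q.1.1, q.2)) (p₂ := fun q => (q.1.1, Real.exp q.2))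
    (h.o₀.mono ((isOpen_Ioo.preimage c2).inter (isOpen_Ioo.preimage continuous_snd)) U1_sub) h.o₁
    (c1.prodMk contMDiff_snd) (c1.prodMk (Real.contDiff_exp.contMDiff.comp contMDiff_snd))
    (fun y hy z hz e => by
      obtain ⟨r, hr, e1, -⟩ := h.k₁_eq L z (h.n₁ y (U1_sub hy) z hz e)
      rw [h.o₀.inj (U1_sub hy) (U1_sub ⟨hr, ex hz⟩) (e.trans e1)])
    (cl_om (contDiff_bu (1 / 4) (1 / 2)) hθ) (om_sq _ hθ)
    ((isCompact_univ.prod isCompact_Icc).prod isCompact_Icc)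
    ((isCompact_univ.prod isCompact_Icc).prod isCompact_Icc) u₁ u₂
    (by
      rintro ⟨⟨x, r⟩, t⟩ hy e
      have ht : t ∈ Ioo (1 / 4 : ℝ) (1 / 2) := mem_of_om e
      have t0 : 0 < t := hy.2.1
      have lt : Real.log t ∈ Icc (Real.log (1 / 4)) (Real.log (1 / 2)) :=
        ⟨Real.log_le_log (by norm_num) ht.1.le, Real.log_le_log t0 ht.2.le⟩
      by_cases k : r ∈ Icc (σ₁ 1) (σ₂ (-1))
      · exact .inl ⟨_, ⟨⟨trivial, k⟩, Ioo_subset_Icc_self ht⟩, rfl⟩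
      · rcases not_and_or.1 k with k | k
        · obtain ⟨v, hv, rfl⟩ := intermediate_value_Ioo zero_le_one L.u₁.continuous.continuousOn
            (show r ∈ Ioo (σ₁ 0) (σ₁ 1) from ⟨hy.1.1, not_le.1 k⟩)
          exact .inr ⟨((x, v), Real.log t), ⟨⟨trivial, by linarith [hv.1], hv.2.le⟩, lt⟩,
            by rw [h.hi _ _ _ hv.1, Real.exp_log t0]⟩
        · obtain ⟨v, hv, rfl⟩ := intermediate_value_Ioo neg_one_lt_zero.le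
            L.u₂.continuous.continuousOn (show r ∈ Ioo (σ₂ (-1)) (σ₂ 0) from ⟨not_le.1 k, hy.1.2⟩)
          exact .inr ⟨((x, v), Real.log t), ⟨⟨trivial, hv.1.le, by linarith [hv.2]⟩, lt⟩,
            by rw [h.lo _ _ _ hv.2, Real.exp_log t0]⟩)
    (fun z _ e => by
      have ht : Real.exp z.2 ∈ Ioo (1 / 4 : ℝ) (1 / 2) := mem_of_om e
      by_cases k : |z.1.2| ≤ 1
      · exact .inr ⟨z, ⟨⟨trivial, abs_le.1 k⟩, (Real.log_le_iff_le_exp (by norm_num)).2 ht.1.le,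
          (Real.le_log_iff_exp_le (by norm_num)).2 ht.2.le⟩, rfl⟩
      · obtain ⟨r, -, e1, hr⟩ := h.k₁_eq L z fun e => k (by rw [e, abs_zero]; exact zero_le_one)
        exact .inl ⟨_, ⟨⟨trivial, hr (not_le.1 k)⟩, Ioo_subset_Icc_self ht⟩, e1.symm⟩)
  refine ⟨A, h1.mono ?_, h2, h3, fun x hx => ?_⟩
  · rintro _ (⟨q, hq, rfl⟩ | ⟨q, hq, rfl⟩)
    exacts [h.z₀ q (U1_sub (u₁ hq)) (by linarith [hq.2.2]), h.z₁ q (u₂ hq)]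
  · rcases not_not.1 (mt h1.eq_zero hx) with ⟨q, hq, rfl⟩ | ⟨q, hq, rfl⟩
    · exact .inl ⟨q, u₁ hq, rfl⟩
    · by_cases k : q.1.2 = 0
      · exact .inr ⟨q, u₂ hq, k, rfl⟩
      · obtain ⟨r, hr, e1, -⟩ := h.k₁_eq L q k
        exact .inl ⟨_, ⟨hr, ex (u₂ hq)⟩, e1.symm⟩

theorem fb {δ : ℝ} (hδ : 0 < δ) (hβ : σ₁ 0 + 2 * δ < σ₂ 0) : ∃ B : Fm 4 X, Cs (𝓡 4) 2 Z B ∧
    B * B = 0 ∧ (∀ q ∈ U0 R (σ₁ 0) (σ₂ 0), pm I4 (𝓡 4) k₀ B q =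
      pm I4 (IR (𝓡 2)) (fun q => (q.1.1, rho (σ₁ 0) δ q.1.2 q.2)) (om (bu 1 4) θ) q) ∧
    ∀ x, B x ≠ 0 → x ∈ k₀ '' U0 R (σ₁ 0) (σ₂ 0) ∨ x ∈ range k₂ := by
  have c1 : ContMDiff I4 (𝓡 2) ∞ fun q : (R × ℝ) × ℝ => q.1.1 := contMDiff_fst.comp contMDiff_fst
  have l1 : 0 < Real.log (5 / 4) := Real.log_pos (by norm_num)
  have l2 : Real.log (Real.log (5 / 2)) < 0 := Real.log_neg (Real.log_pos (by norm_num))
    ((Real.log_lt_iff_lt_exp (by norm_num)).2 (by linarith [Real.exp_one_gt_d9]))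
  have nb : ∀ {r : ℝ}, r ∈ Icc (σ₁ 0 - 2 * δ) (σ₁ 0 + 2 * δ) → r ≠ σ₂ 0 := fun hr =>
    (hr.2.trans_lt hβ).ne
  have u₁ : ((univ ×ˢ Icc (σ₁ 0 - 2 * δ) (σ₁ 0 + 2 * δ)) ×ˢ Icc (-3 / 2 : ℝ) (5 / 4)) ∩
      {q | 1 ≤ rho (σ₁ 0) δ q.1.2 q.2} ⊆ U0 R (σ₁ 0) (σ₂ 0) := fun q hq =>
    (le_or_gt 0 q.2).imp_left fun k => ⟨rho_ne hq.2 k hq.1.2.2, nb hq.1.1.2⟩
  obtain ⟨A, h1, h2, h3⟩ := two (p₁ := fun q => (q.1.1, rho (σ₁ 0) δ q.1.2 q.2))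
    (p₂ := fun q => (q.1.1, rho (σ₁ 0) δ q.1.2 (Real.exp (Real.exp q.2)))) h.o₀ h.o₂
    (c1.prodMk (contMDiff_rho _ _ contDiff_id))
    (c1.prodMk (contMDiff_rho _ _ (Real.contDiff_exp.comp Real.contDiff_exp)))
    (fun y hy z _ e => by
      have k := h.n₂ y hy z e
      rw [h.o₀.inj hy (x₂ := (z.1, Real.exp (Real.exp z.2))) (.inl k)
        (e.trans (h.top _ _ _ k.1 k.2))])
    (cl_om (contDiff_bu 1 4) hθ) (om_sq _ hθ)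
    (((isCompact_univ.prod isCompact_Icc).prod isCompact_Icc).inter_right
      (isClosed_le continuous_const (contMDiff_rho _ _ contDiff_id).continuous))
    ((isCompact_univ.prod (isCompact_Icc (a := σ₁ 0 - 2 * δ) (b := σ₁ 0 + 2 * δ))).prod
      (isCompact_Icc (a := Real.log (Real.log (5 / 4))) (b := Real.log (Real.log (5 / 2)))))
    u₁ (subset_univ _)
    (by
      rintro ⟨⟨x, r⟩, t⟩ hy e
      have ht : rho (σ₁ 0) δ r t ∈ Ioo (1 : ℝ) 4 := mem_of_om e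
      obtain ⟨k1, k2⟩ := rho_le hδ ht.2
      rcases le_or_gt t (5 / 4) with k | k
      · exact .inl ⟨_, ⟨⟨⟨trivial, k1⟩, k2.1, k⟩, ht.1.le⟩, rfl⟩
      · have t0 : 0 < t := by linarith
        have t1 := Real.log_le_log (by norm_num) k.le
        have k3 := hy.resolve_right t0.not_gt
        exact .inr ⟨((x, r), Real.log (Real.log t)), ⟨⟨trivial, k1⟩, Real.log_le_log l1 t1,
          Real.log_le_log (l1.trans_le t1) (Real.log_le_log t0 k2.2)⟩, by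
            rw [h.top _ _ _ k3.1 k3.2, Real.exp_log (l1.trans_le t1), Real.exp_log t0]⟩)
    (by
      rintro ⟨⟨x, r⟩, s⟩ - e
      have ht : rho (σ₁ 0) δ r (Real.exp (Real.exp s)) ∈ Ioo (1 : ℝ) 4 := mem_of_om e
      obtain ⟨k1, k2⟩ := rho_le hδ ht.2
      rcases le_total (Real.exp (Real.exp s)) (5 / 4) with k | k
      · exact .inl ⟨_, ⟨⟨⟨trivial, k1⟩, k2.1, k⟩, ht.1.le⟩,
          (h.top _ _ _ (rho_ne ht.1.le (Real.exp_pos _).le k) (nb k1)).symm⟩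
      · exact .inr ⟨_, ⟨⟨trivial, k1⟩, (Real.log_le_iff_le_exp l1).2
          ((Real.log_le_iff_le_exp (by norm_num)).2 k), (Real.le_log_iff_exp_le
          (Real.log_pos (by norm_num))).2 ((Real.le_log_iff_exp_le (by norm_num)).2 k2.2)⟩, rfl⟩)
  refine ⟨A, h1.mono ?_, h2, h3, fun x hx => ?_⟩
  · rintro _ (⟨q, hq, rfl⟩ | ⟨q, hq, rfl⟩)
    exacts [h.z₀ q (u₁ hq) (by linarith [hq.1.2.2]), h.z₂ q (hq.2.2.trans_lt l2)]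
  · exact (not_not.1 (mt h1.eq_zero hx)).imp (fun k => image_mono u₁ k)
      fun k => image_subset_range _ _ k

end Geo

/-- the meeting set of the two annuli -/
theorem isConnected_T {T : Set R} (hT : IsConnected T) (α : ℝ) {δ : ℝ} (hδ : 0 < δ) :
    IsConnected {q : (R × ℝ) × ℝ | q.1.1 ∈ T ∧ α < q.1.2 ∧ q.2 ∈ Ioo (1 / 4 : ℝ) (1 / 2) ∧
      rho α δ q.1.2 q.2 ∈ Ioo (1 : ℝ) 4} := by
  convert ((hT.prod (isConnected_Ioo (show (1 : ℝ) < 4 by norm_num))).prod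
    (isConnected_Ioo (show (1 / 4 : ℝ) < 1 / 2 by norm_num))).image
    (fun q : (R × ℝ) × ℝ => ((q.1.1, α + δ * √(q.1.2 - (q.2 - 1 / 2) ^ 2)), q.2))
    (Continuous.continuousOn (by fun_prop)) using 1
  ext ⟨⟨x, r⟩, t⟩
  constructor
  · rintro ⟨h1, h2, h3, h4⟩
    refine ⟨((x, rho α δ r t), t), ⟨⟨h1, h4⟩, h3⟩, ?_⟩
    simp only [rho, add_sub_cancel_right]
    rw [Real.sqrt_sq (div_pos (sub_pos.2 h2) hδ).le, mul_div_cancel₀ _ hδ.ne', add_sub_cancel]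
  · rintro ⟨⟨⟨y, u⟩, s⟩, ⟨⟨h1, h2⟩, h3⟩, e⟩
    cases e
    have h4 : 0 < u - (s - 1 / 2) ^ 2 := by nlinarith [h2.1, h3.1, h3.2]
    refine ⟨h1, lt_add_of_pos_right _ (mul_pos hδ (Real.sqrt_pos.2 h4)), h3, ?_⟩
    simp only [rho, add_sub_cancel_left]
    rwa [mul_div_cancel_left₀ _ hδ.ne', Real.sq_sqrt h4.le, sub_add_cancel]

/-- **the trivial commutator creates a hyperbolic pair** -/
theorem hpBase : HpBase := by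
  rintro Y Y' R b b' G σ₁ σ₂ M C C₁ C₂ ⟨θ₁, θ₂, h₁, h₂, hc⟩ O₁ O₂
  have g := geo M O₁ O₂
  have : Inhabited R := ⟨hc.nonempty.some⟩
  obtain ⟨δ, hδ, hβ⟩ : ∃ δ, 0 < δ ∧ σ₁ 0 + 2 * δ < σ₂ 0 :=
    ⟨(σ₂ 0 - σ₁ 0) / 3, by linarith [M.lv.lt 0 0], by linarith [M.lv.lt 0 0]⟩
  obtain ⟨A, a1, a2, a3, a4⟩ := g.fa M.lv h₁
  obtain ⟨B, b1, b2, b3, b4⟩ := g.fb M.lv h₂ hδ hβ
  have key : ∀ q ∈ U1 R (σ₁ 0) (σ₂ 0), tp (EE 4) ((A * B) (O₂.i (O₁.i (C.j (b q.1, q.2))))) ≠ 0 ↔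
      tp (EE 2) (θ₁ q.1.1 * θ₂ q.1.1) ≠ 0 ∧ q.2 ∈ Ioo (1 / 4 : ℝ) (1 / 2) ∧
        rho (σ₁ 0) δ q.1.2 q.2 ∈ Ioo (1 : ℝ) 4 := fun q hq => by
    have l := g.o₀.ld q (U1_sub hq)
    have e := Orx52.tp_ld l (A * B)
    have d : HasDerivAt (fun r => rho (σ₁ 0) δ r q.2) (2 * ((q.1.2 - σ₁ 0) / δ) * (1 / δ)) q.1.2 := by
      simpa [rho] using ((((hasDerivAt_id q.1.2).sub_const (σ₁ 0)).div_const δ).pow 2).add_const
        ((q.2 - 1 / 2) ^ 2)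
    rw [pm_mul, Pi.mul_apply, a3 q hq, b3 q (U1_sub hq), tp_pair
      (φ := fun q => rho (σ₁ 0) δ q.1.2 q.2) (contMDiff_rho _ _ contDiff_id) d (fun _ => rfl) _ _ (h₁.dg _ trivial)] at e
    have n : 2 * ((q.1.2 - σ₁ 0) / δ) * (1 / δ) ≠ 0 := by
      have := sub_pos.2 hq.1.1
      positivity
    rw [← mul_ne_zero_iff_left (Orx52.jac_ld l), ← e, mul_ne_zero_iff_left
      (neg_ne_zero.2 (mul_ne_zero Sym24.kap_ne Sym24.kap_ne)), mul_ne_zero_iff,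
      mul_ne_zero_iff_right n, mul_ne_zero_iff, bu_ne, bu_ne, and_comm]
  have sub : {q : (R × ℝ) × ℝ | q.1.1 ∈ {x | tp (EE 2) (θ₁ x * θ₂ x) ≠ 0} ∧ σ₁ 0 < q.1.2 ∧
      q.2 ∈ Ioo (1 / 4 : ℝ) (1 / 2) ∧ rho (σ₁ 0) δ q.1.2 q.2 ∈ Ioo (1 : ℝ) 4} ⊆
      U1 R (σ₁ 0) (σ₂ 0) := fun q hq => ⟨⟨hq.2.1, (rho_le hδ hq.2.2.2.2).1.2.trans_lt hβ⟩,
    by linarith [hq.2.2.1.1], by linarith [hq.2.2.1.2]⟩
  refine ⟨A, B, a1, b1, a2, b2, ?_⟩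
  convert (isConnected_T hc (σ₁ 0) hδ).image _ fun q hq =>
    (g.o₀.ld q (U1_sub (sub hq))).contMDiffAt.continuousAt.continuousWithinAt using 1
  ext x
  constructor
  · intro hx
    have hA : A x ≠ 0 := fun e => hx (by rw [e, zero_mul, map_zero])
    have hB : B x ≠ 0 := fun e => hx (by rw [e, mul_zero, map_zero])
    rcases a4 x hA with ⟨q, hq, rfl⟩ | ⟨z, hz, e, rfl⟩
    · have k := (key q hq).1 hx
      exact ⟨q, ⟨k.1, hq.1.1, k.2⟩, rfl⟩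
    · rcases b4 _ hB with ⟨q, hq, k⟩ | ⟨w, k⟩
      exacts [(g.n₁ q hq z hz k e).elim, (g.n₃ z hz w k.symm).elim]
  · rintro ⟨q, hq, rfl⟩
    exact (key q (sub hq)).2 ⟨hq.1, hq.2.2⟩

end Crest.Agent.X212.Hp52
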